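import Vale.Agent.P281.H456.TGF.Core
import Vale.Agent.P281.H592.TGF.K0
import Vale.Agent.P281.H176.TGF.CardF
import Vale.Agent.P281.H389.TGF.Desc
import Vale.Agent.P281.H389.TGF.Trace
import Vale.Agent.P281.H603.TGF.ExtK
import Vale.Agent.P281.H969.TGB.LMain
import Vale.Agent.P281.H225.TGB.ExtR
import Vale.Agent.P281.H225.TGB.Bad
import Vale.Agent.P281.H282.TG.TameU
import Vale.Agent.P281.H456.TG.VSmall
import Vale.Agent.P281.H364.TD.D8
import Vale.Agent.P281.H364.Gen.Crit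
import Vale.Agent.P281.H150.Gen.Img

/-!
# P281, project T-GF: the goal
-/

namespace Vale.Agent.P281.H969.SG2

/-- **T-GF** -/
theorem tgf : H603.TGF.TGFStmt :=
  H456.TGF.tgf_of (H364.crit H150.Gen.img) H364.TD.fibIn H225.TGB.bad H969.TGB.liftTB
    H282.TG.tameU H456.TG.vSmall H592.TGF.fibBddStmt (H176.TGF.cardF H349.TG.sheet)
    (H389.TGF.descF (H389.TGF.traceF H603.TGF.extK) H225.TGB.extR)

end Vale.Agent.P281.H969.SG2
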