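import Vale.Agent.P281.H969.SG2.Core
import Vale.Agent.P281.H969.SG2.Tgf
import Vale.Agent.P281.H389.TGB.Bound
import Vale.Agent.P281.H176.TGB.CardB
import Vale.Agent.P281.H180.TG.Pow
import Vale.Agent.P281.H485.Gen.Har
import Vale.Agent.P281.H603.TG.FinE
import Vale.Agent.P281.H383.TG.UDAny
import Vale.Agent.P281.H225.TG.FamHFin
import Vale.Agent.P281.H702.Z.Br2

/-!
# P281: fibrations dominated by generically finite maps, the theorem
-/

open Vale.Agent.P281 Vale.Agent.P281.H713.TZ.S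
open Vale.Agent.P281.H64.Z
open scoped Manifold ContDiff Topology

noncomputable section

namespace Vale.Agent.P281.H969.SG2

theorem first : SG.FirstStmt :=
  SG.first_of (H364.crit H150.Gen.img) H364.TD.fibIn H225.TGB.bad H969.TGB.liftTB H282.TG.tameU
    H456.TG.vSmall (H176.TGB.cardB H349.TG.sheet) (H389.TGB.traceB H485.Gen.har) H180.TG.pow
    H225.TGB.extR

theorem famE : FamEStmt := by
  intro p d X Y _ _ _ _ _ _ f Δ hd h hw
  exact H603.TG.famE hd h hw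

theorem famUD : FamUDStmt := by
  intro p d X Y _ _ _ _ _ _ f Δ hd h hw
  exact H383.TG.famUD hd h hw

theorem famH : FamHStmt := by
  intro p d X Y _ _ _ _ _ _ f Δ hd h hw
  obtain ⟨H, hH, hm⟩ := H225.TG.famH hd h hw
  refine ⟨H, hH, fun y hy F _ _ _ _ i hi hs => ?_⟩
  have := hi.manifold
  exact hm y hy F i hi (H702.Z.sympl_hk hs)

/-- **the theorem** -/
theorem main {p d r : ℕ}
    (hd : 0 < d) {X₁ Y₁ X Y : Type} [TopologicalSpace X₁] [ChartedSpace (Cm (p + d)) X₁]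
    [TopologicalSpace Y₁] [ChartedSpace (Cm p) Y₁] [TopologicalSpace X]
    [ChartedSpace (Cm (p + d)) X] [TopologicalSpace Y] [ChartedSpace (Cm p) Y]
    (f₁ : X₁ → Y₁) (Δ₁ : Set X₁ → ℝ) (f : X → Y) (Δ : Set X → ℝ)
    (h₁ : Fibn (p + d) p f₁ Δ₁) (h : Fibn (p + d) p f Δ)
    (hdom : Dominates (p + d) p d f₁ Δ₁ f Δ r) (hcls : Cls (p + d) p d f₁ Δ₁ r) :
    AddLe (p + d) p f Δ ((r : ℕ∞) : WithBot ℕ∞) ∧ ForAll (p + d) p d f fun F _ _ i =>
      kR (p + d) d i Δ ≤ ((r : ℕ∞) : WithBot ℕ∞) → AddLe (p + d) p f Δ (kR (p + d) d i Δ) :=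
  main_of (H364.crit H150.Gen.img) first tgf famE famUD famH hd f₁ Δ₁ f Δ h₁ h hdom hcls

end Vale.Agent.P281.H969.SG2
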