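import Vale.Agent.P281.H969.SG2.Fib
import Vale.Agent.P281.H969.SG.First
import Vale.Agent.P281.H603.TGF.Spec
import Vale.Agent.P281.H303.X.Fin
import Vale.Agent.P281.H969.TG.Desc
import Vale.Agent.P281.H603.TG.FamE
import Vale.Agent.P281.H383.TG.UD

/-!
# P281: fibrations dominated by generically finite maps, the statement from T-GB and the families
-/

open Set Filter Metric Vale.Agent.P281 Vale.Agent.P281.H713.TZ.S
open Vale.Agent.P272.K (Chart IsKahler)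
open Vale.Agent.P281.H511.Surf (IsFibration)
open Vale.Agent.P281.H64.Thin (IsThinSet)
open Vale.Agent.P281.H64.Z
open Vale.Agent.P281.H969.TG (HasFam)
open Vale.Agent.P281.H969.TGB (IsSqB)
open Vale.Agent.P281.H969.SG (FirstStmt)
open Vale.Agent.P281.H603.TGF (IsSqF TGFStmt)
open Vale.Agent.P281.H64.Gen (CritStmt)
open Vale.Agent.P281.H383.TG (FamLe)
open scoped Manifold ContDiff Topology

set_option linter.all false

noncomputable section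

namespace Vale.Agent.P281.H969.SG2

theorem thins_empty {p : ℕ} {Y : Type} [TopologicalSpace Y] [ChartedSpace (Cm p) Y] :
    Thins p (fun _ => (∅ : Set Y)) := fun _ => by
  refine ⟨isClosed_empty, fun y => ⟨fun _ => 1, contMDiffAt_const, fun h => ?_,
    Filter.Eventually.of_forall fun z hz => hz.elim⟩⟩
  exact one_ne_zero h.self_of_nhds

theorem union {p : ℕ} {Y : Type} [TopologicalSpace Y] [ChartedSpace (Cm p) Y]
    {H H' : ℕ → Set Y} (hH : Thins p H) (hH' : Thins p H') :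
    ∃ K : ℕ → Set Y, Thins p K ∧ ∀ y, (∀ j, y ∉ K j) → (∀ j, y ∉ H j) ∧ ∀ j, y ∉ H' j := by
  refine ⟨fun j => if j % 2 = 0 then H (j / 2) else H' (j / 2), fun j => ?_, fun y hy => ⟨fun j => ?_,
    fun j => ?_⟩⟩
  · by_cases h : j % 2 = 0
    · simp only [h, if_true]
      exact hH _
    · simp only [h, if_false]
      exact hH' _
  · have := hy (2 * j)
    have h1 : (2 * j) % 2 = 0 := by omega
    have h2 : (2 * j) / 2 = j := by omega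
    simpa only [h1, if_true, h2] using this
  · have := hy (2 * j + 1)
    have h1 : ¬ (2 * j + 1) % 2 = 0 := by omega
    have h2 : (2 * j + 1) / 2 = j := by omega
    simpa only [h1, if_false, h2] using this

/-! ### The square -/

theorem etale_of {p : ℕ} {Y₁ Y : Type} [TopologicalSpace Y₁] [ChartedSpace (Cm p) Y₁]
    [IsManifold 𝓘(ℂ, Cm p) ω Y₁] [TopologicalSpace Y] [ChartedSpace (Cm p) Y]
    [IsManifold 𝓘(ℂ, Cm p) ω Y] {v : Y₁ → Y} (hv : ContMDiff 𝓘(ℂ, Cm p) 𝓘(ℂ, Cm p) ω v) {y₁ : Y₁}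
    (h : jdet p v y₁ y₁ ≠ 0) : Function.Injective (mfderiv 𝓘(ℂ, Cm p) 𝓘(ℂ, Cm p) v y₁) := by
  have h1 := (H969.TG.dc_jac (n := p) (u := v) (x₁ := y₁) (hv y₁)).self_of_nhds
  have h2 : H969.TG.dc p v y₁ y₁ ≠ 0 := h
  have h3 : H969.TG.dc p v y₁ y₁ * jac (Cm p) (chartAt (Cm p) y₁) y₁ ≠ 0 :=
    mul_ne_zero h2 (jac_chart_ne_zero (mem_chart_source _ y₁))
  rw [← h1] at h3
  exact H969.TG.inj_of_det (right_ne_zero_of_mul h3)

theorem sq_of {p d r : ℕ} {X₁ Y₁ X Y : Type} [TopologicalSpace X₁] [ChartedSpace (Cm (p + d)) X₁]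
    [TopologicalSpace Y₁] [ChartedSpace (Cm p) Y₁] [TopologicalSpace X]
    [ChartedSpace (Cm (p + d)) X] [TopologicalSpace Y] [ChartedSpace (Cm p) Y] {f₁ : X₁ → Y₁}
    {Δ₁ : Set X₁ → ℝ} {f : X → Y} {Δ : Set X → ℝ} (h₁ : Fibn (p + d) p f₁ Δ₁)
    (h : Fibn (p + d) p f Δ) (hdom : Dominates (p + d) p d f₁ Δ₁ f Δ r) :
    ∃ (u : X₁ → X) (v : Y₁ → Y) (S₀ : Set Y) (B : Set X),
      IsSqB (n := p + d) (p := p) f₁ Δ₁ f Δ u v S₀ B ∨ r = 0 ∧ KapZero (p + d) p d f₁ Δ₁ f Δ ∧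
        ∃ 𝒢, IsSqF (n := p + d) (p := p) f₁ Δ₁ f Δ u v S₀ B 𝒢 := by
  obtain ⟨u, v, S, B, hu, hv, hc, hs, hS, he, hB, hor⟩ := hdom
  have : IsManifold 𝓘(ℂ, Cm (p + d)) ω X₁ := h₁.manifold.1
  have : IsManifold 𝓘(ℂ, Cm (p + d)) ω X := h.manifold.1
  have : IsManifold 𝓘(ℂ, Cm p) ω Y₁ := h₁.manifold.2
  have : IsManifold 𝓘(ℂ, Cm p) ω Y := h.manifold.2
  refine ⟨u, v, S, B, ?_⟩
  rcases hor with hle | ⟨hr, hK, hv0, hv1, 𝒢, hf, hp, het⟩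
  · exact Or.inl ⟨hu, hv, hc, hs, hS, fun y₁ hy => etale_of hv (he y₁ hy), ⟨hB.2.1, hB.2.2⟩,
      hB.1, fun x₁ h1 h2 => hle x₁ (by rw [hc x₁]; exact h1) h2⟩
  · exact Or.inr ⟨hr, hK, 𝒢, hu, hv, hc, hs, hS, fun y₁ hy => etale_of hv (he y₁ hy),
      ⟨hB.2.1, hB.2.2⟩, hB.1, hf, hp, fun x₁ h1 h2 => etale_of hu (het x₁ h1 h2), hv0, hv1⟩

/-- the condition on the Kodaira dimensions of the fibres -/
theorem kapZero_of (crit : CritStmt) {p d : ℕ} {X₁ Y₁ X Y : Type} [TopologicalSpace X₁]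
    [ChartedSpace (Cm (p + d)) X₁]
    [TopologicalSpace Y₁] [ChartedSpace (Cm p) Y₁] [TopologicalSpace X]
    [ChartedSpace (Cm (p + d)) X] [TopologicalSpace Y] [ChartedSpace (Cm p) Y] {f₁ : X₁ → Y₁}
    {Δ₁ : Set X₁ → ℝ} {f : X → Y} {Δ : Set X → ℝ} (h₁ : Fibn (p + d) p f₁ Δ₁)
    (h : Fibn (p + d) p f Δ) (hK : KapZero (p + d) p d f₁ Δ₁ f Δ) :
    H603.TGF.KapZero (p + d) p d f₁ Δ₁ f Δ := by
  obtain ⟨⟨H₁, hH₁, hm₁⟩, H, hH, hm⟩ := hK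
  obtain ⟨L₁, hL₁, hf₁⟩ := exists_fibre crit h₁
  obtain ⟨L, hL, hf⟩ := exists_fibre crit h
  obtain ⟨K₁, hK₁, hKy₁⟩ := union hH₁ hL₁
  obtain ⟨K, hK, hKy⟩ := union hH hL
  refine ⟨⟨K, hK, fun y hy => ?_⟩, K₁, hK₁, fun y hy => ?_⟩
  · obtain ⟨F, _, _, _, i, hi, hinj⟩ := hf y (hKy y hy).2
    exact ⟨F, _, inferInstance, _, i, hi, hinj, hm y (hKy y hy).1 F i hi hinj⟩
  · obtain ⟨F, _, _, _, i, hi, hinj⟩ := hf₁ y (hKy₁ y hy).2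
    exact ⟨F, _, inferInstance, _, i, hi, hinj, hm₁ y (hKy₁ y hy).1 F i hi hinj⟩

/-! ### The families -/

/-- the input of T-E -/
def FamEStmt : Prop :=
  ∀ (p d : ℕ) (X Y : Type) [TopologicalSpace X]
    [ChartedSpace (Cm (p + d)) X] [IsManifold 𝓘(ℂ, Cm (p + d)) ω X] [TopologicalSpace Y]
    [ChartedSpace (Cm p) Y] [IsManifold 𝓘(ℂ, Cm p) ω Y] (f : X → Y) (Δ : Set X → ℝ), 0 < d →
    IsFibration (Cm (p + d)) (Cm p) f Δ → Kahler (p + d) X →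
    ∃ H : ℕ → Set Y, Thins p H ∧ ∀ y, (∀ k, y ∉ H k) →
      ∀ (F : Type) [TopologicalSpace F] [T2Space F] [ChartedSpace (Cm d) F] (i : F → X),
        Fbr (p + d) d f y i → ∀ r : ℕ, H64.TK.GaussRank d F r → HasFam p d r f Δ

/-- the input of T-UD -/
def FamUDStmt : Prop :=
  ∀ (p d : ℕ) (X Y : Type) [TopologicalSpace X]
    [ChartedSpace (Cm (p + d)) X] [IsManifold 𝓘(ℂ, Cm (p + d)) ω X] [TopologicalSpace Y]
    [ChartedSpace (Cm p) Y] [IsManifold 𝓘(ℂ, Cm p) ω Y] (f : X → Y) (Δ : Set X → ℝ), 0 < d →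
    IsFibration (Cm (p + d)) (Cm p) f Δ → Kahler (p + d) X →
    ∃ H : ℕ → Set Y, Thins p H ∧ ∀ y, (∀ k, y ∉ H k) →
      ∀ (F : Type) [TopologicalSpace F] [T2Space F] [ChartedSpace (Cm d) F] (i : F → X),
        Fbr (p + d) d f y i → H64.TU.IsGen d F → FamLe p d f Δ

/-- the input of T-HK -/
def FamHStmt : Prop :=
  ∀ (p d : ℕ) (X Y : Type) [TopologicalSpace X]
    [ChartedSpace (Cm (p + d)) X] [IsManifold 𝓘(ℂ, Cm (p + d)) ω X] [TopologicalSpace Y]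
    [ChartedSpace (Cm p) Y] [IsManifold 𝓘(ℂ, Cm p) ω Y] (f : X → Y) (Δ : Set X → ℝ), 2 ≤ d →
    IsFibration (Cm (p + d)) (Cm p) f Δ → Kahler (p + d) X →
    ∃ H : ℕ → Set Y, Thins p H ∧ ∀ y, (∀ k, y ∉ H k) →
      ∀ (F : Type) [TopologicalSpace F] [T2Space F] [SimplyConnectedSpace F]
        [ChartedSpace (Cm d) F] (i : F → X), Fbr (p + d) d f y i →
        Sympl d F → HasFam p d 0 f Δ

theorem hasFam_of (fe : FamEStmt) (fu : FamUDStmt) (fh : FamHStmt) {p d r : ℕ} {X Y : Type}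
    [TopologicalSpace X] [ChartedSpace (Cm (p + d)) X] [IsManifold 𝓘(ℂ, Cm (p + d)) ω X]
    [TopologicalSpace Y] [ChartedSpace (Cm p) Y] [IsManifold 𝓘(ℂ, Cm p) ω Y] {f : X → Y}
    {Δ : Set X → ℝ} (hd : 0 < d) (h : Fibn (p + d) p f Δ) (hc : Cls (p + d) p d f Δ r) :
    HasFam p d r f Δ := by
  obtain ⟨hK, hc⟩ := hc
  obtain ⟨H₁, hH₁, h₁⟩ := fe p d X Y f Δ hd h hK
  obtain ⟨H₂, hH₂, h₂⟩ := fu p d X Y f Δ hd h hK
  have h3 : ∃ H : ℕ → Set Y, Thins p H ∧ ∀ y, (∀ k, y ∉ H k) →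
      ∀ (F : Type) [TopologicalSpace F] [T2Space F] [SimplyConnectedSpace F]
        [ChartedSpace (Cm d) F] (i : F → X), Fbr (p + d) d f y i → 2 ≤ d →
        Sympl d F → HasFam p d 0 f Δ := by
    by_cases hd2 : 2 ≤ d
    · obtain ⟨H, hH, hm⟩ := fh p d X Y f Δ hd2 h hK
      exact ⟨H, hH, fun y hy F _ _ _ _ i hi _ hs => hm y hy F i hi hs⟩
    · exact ⟨_, thins_empty, fun y _ F _ _ _ _ i _ h => absurd h hd2⟩
  have h4 : ∃ H : ℕ → Set Y, Thins p H ∧ (FamLe p d f Δ → ∃ s : ℕ, HasFam p d s f Δ ∧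
      ∀ y, (∀ k, y ∉ H k) → ∀ (F : Type) [TopologicalSpace F] [T2Space F]
        [ChartedSpace (Cm d) F] (i : F → X), Fbr (p + d) d f y i →
        kR (p + d) d i Δ ≤ ((s : ℕ∞) : WithBot ℕ∞)) := by
    by_cases hF : FamLe p d f Δ
    · obtain ⟨s, hs, H, hH, hm⟩ := hF
      exact ⟨H, hH, fun _ => ⟨s, hs, hm⟩⟩
    · exact ⟨_, thins_empty, fun h => absurd h hF⟩
  obtain ⟨H₃, hH₃, h₃⟩ := h3
  obtain ⟨H₄, hH₄, h₄⟩ := h4
  obtain ⟨K, hK, hKy⟩ := union hH₁ hH₂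
  obtain ⟨K', hK', hKy'⟩ := union hH₃ hH₄
  obtain ⟨L, hL, hLy⟩ := union hK hK'
  obtain ⟨y, hy, F, _, _, _, i, hi, hcase⟩ := hc L hL
  obtain ⟨hy12, hy34⟩ := hLy y hy
  obtain ⟨hy1, hy2⟩ := hKy y hy12
  obtain ⟨hy3, hy4⟩ := hKy' y hy34
  rcases hcase with hg | ⟨hg, hr⟩ | ⟨hd2, hsc, hs, rfl⟩
  · exact h₁ y hy1 F i hi r hg
  · obtain ⟨s, hs, hm⟩ := h₄ (h₂ y hy2 F i hi hg)
    have h5 : ((r : ℕ∞) : WithBot ℕ∞) ≤ ((s : ℕ∞) : WithBot ℕ∞) := hr.trans (hm y hy4 F i hi)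
    have h6 : r ≤ s := by exact_mod_cast h5
    exact H603.TG.fam_mono h6 hs
  · exact h₃ y hy3 F i hi hd2 hs


section

variable {n p d : ℕ} {X Y : Type} [tX : TopologicalSpace X] [cX : ChartedSpace (Cm n) X]
  [tY : TopologicalSpace Y] [cY : ChartedSpace (Cm p) Y] {f : X → Y} {Δ : Set X → ℝ}

theorem hasNeat_iff : HasNeat n p f Δ ↔ p = 1 ∨ H303.X.HasMildModel n p f Δ := by
  refine or_congr Iff.rfl ⟨?_, ?_⟩
  · rintro ⟨X₁, Y₁, _, _, _, _, f₁, Δ₁, h1, h2, h3⟩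
    exact ⟨X₁, Y₁, _, _, _, _, f₁, Δ₁, ⟨h1, h2⟩, h3⟩
  · rintro ⟨X₁, Y₁, _, _, _, _, f₁, Δ₁, ⟨h1, h2⟩, h3⟩
    exact ⟨X₁, Y₁, _, _, _, _, f₁, Δ₁, h1, h2, h3⟩

theorem addLe_of (hf : Fibn n p f Δ) {a : WithBot ℕ∞} (h : a + kY n p f Δ ≤ kX n Δ) :
    AddLe n p f Δ a :=
  ⟨h, fun hn => (add_le_add le_rfl (H303.X.kap_le_or hf (hasNeat_iff.1 hn))).trans h⟩

theorem addLe_mono {a b : WithBot ℕ∞} (h : AddLe n p f Δ b) (hab : a ≤ b) : AddLe n p f Δ a :=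
  ⟨(add_le_add hab le_rfl).trans h.1, fun hn => (add_le_add hab le_rfl).trans (h.2 hn)⟩

end

/-- **the statement** -/
theorem main_of (crit : CritStmt) (first : FirstStmt) (tgf : TGFStmt) (fe : FamEStmt)
    (fu : FamUDStmt) (fh : FamHStmt) {p d r : ℕ}
    (hd : 0 < d) {X₁ Y₁ X Y : Type} [TopologicalSpace X₁] [ChartedSpace (Cm (p + d)) X₁]
    [TopologicalSpace Y₁] [ChartedSpace (Cm p) Y₁] [TopologicalSpace X]
    [ChartedSpace (Cm (p + d)) X] [TopologicalSpace Y] [ChartedSpace (Cm p) Y]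
    (f₁ : X₁ → Y₁) (Δ₁ : Set X₁ → ℝ) (f : X → Y) (Δ : Set X → ℝ)
    (h₁ : Fibn (p + d) p f₁ Δ₁) (h : Fibn (p + d) p f Δ)
    (hdom : Dominates (p + d) p d f₁ Δ₁ f Δ r) (hcls : Cls (p + d) p d f₁ Δ₁ r) :
    AddLe (p + d) p f Δ ((r : ℕ∞) : WithBot ℕ∞) ∧ ForAll (p + d) p d f fun F _ _ i =>
      kR (p + d) d i Δ ≤ ((r : ℕ∞) : WithBot ℕ∞) → AddLe (p + d) p f Δ (kR (p + d) d i Δ) := by
  have : IsManifold 𝓘(ℂ, Cm (p + d)) ω X₁ := h₁.manifold.1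
  have : IsManifold 𝓘(ℂ, Cm p) ω Y₁ := h₁.manifold.2
  have h1 : AddLe (p + d) p f Δ ((r : ℕ∞) : WithBot ℕ∞) := by
    refine addLe_of h ?_
    obtain ⟨u, v, S₀, B, hsq | ⟨rfl, hK, 𝒢, hsq⟩⟩ := sq_of h₁ h hdom
    · exact first p d r X₁ Y₁ X Y f₁ Δ₁ f Δ u v S₀ B hd h₁ h hsq (hasFam_of fe fu fh hd h₁ hcls)
    · obtain ⟨H, hH, hm⟩ := tgf p d X₁ Y₁ X Y f₁ Δ₁ f Δ u v S₀ B 𝒢 hd h₁ h hsq
        (hasFam_of fe fu fh hd h₁ hcls) (kapZero_of crit h₁ h hK)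
      obtain ⟨L, hL, hf⟩ := exists_fibre crit h
      obtain ⟨K, hK', hKy⟩ := union hH hL
      obtain ⟨y, hy⟩ := exists_off h hK'
      obtain ⟨F, _, _, _, i, hi, -⟩ := hf y (hKy y hy).2
      have h2 := (hm y (hKy y hy).1 F i hi).1
      have h3 : (((0 : ℕ) : ℕ∞) : WithBot ℕ∞) + kY (p + d) p f Δ = kY (p + d) p f Δ := zero_add _
      rw [h3]
      exact h2
  exact ⟨h1, _, thins_empty, fun y _ F _ _ _ i _ hr => addLe_mono h1 hr⟩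

end Vale.Agent.P281.H969.SG2
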